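import Vale.Agent.P083.H731S.Pres2

/-!
# A finite obstruction in Kirchberg's embedding problem
-/

set_option linter.all false

open Filter Topology
open scoped ENNReal InnerProductSpace BoundedContinuousFunction

namespace Vale.Agent.P083.H731S

open Vale.Agent.P083 Vale.Agent.P083N Vale.Agent.P083.H903

noncomputable section

/-- A separable C*-algebra with a solution of the relations. -/
theorem exists_alg : ∃ (A : Type) (_ : CStarAlgebra A), Nontrivial A ∧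
    TopologicalSpace.SeparableSpace A ∧
    ∃ (a : Gen → A) (t : ZMod 101 → A) (s : A), Rels 101 ZMod.toCircle a t s := by
  have h101 : Fact (Nat.Prime 101) := ⟨by norm_num⟩
  obtain ⟨a, t, s, h⟩ := exists_rels_op 101 ZMod.toCircle
  have : Nontrivial (L2 (Ix 101 × ℕ) ℂ →L[ℂ] L2 (Ix 101 × ℕ) ℂ) := by
    have : Nontrivial (L2 (Ix 101 × ℕ) ℂ) := by
      classical
      refine ⟨⟨lp.single 2 (⟨0, 0⟩, 0) (1 : ℂ), 0, fun h => ?_⟩⟩
      have := congrArg (fun f : L2 (Ix 101 × ℕ) ℂ => f (⟨0, 0⟩, 0)) h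
      simp only [Matrix.zero_empty, lp.single_apply, Pi.single_eq_same, ZeroMemClass.coe_zero,
        PreLp.zero_apply, one_ne_zero] at this
    infer_instance
  exact exists_separable 101 ZMod.toCircle h

theorem main_fin : ∃ (k : ℕ) (R : Finset (FreeAlgebra ℂ (Fin k ⊕ Fin k))) (ε : ℝ), 0 < ε ∧
    (∃ (A : Type) (_ : CStarAlgebra A), Nontrivial A ∧ TopologicalSpace.SeparableSpace A ∧
      (∃ x : Fin k → A, ∀ P ∈ R, evalStar x P = 0) ∧
      ∀ (O : Type) [CStarAlgebra O] [Nontrivial O] (s₁ s₂ : O), CuntzTwo s₁ s₂ →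
        ∀ (ω : Ultrafilter ℕ) (Q : Type) [CStarAlgebra Q] (q : (ℕ →ᵇ O) →⋆ₐ[ℂ] Q),
          IsUltrapower O ω Q q → IsEmpty (A →⋆ₐ[ℂ] Q)) ∧
    ∀ (B : Type) [CStarAlgebra B] [Nontrivial B],
      (IsExactAlg B ∨ IsNuclear B ∨ ∃ s₁ s₂ : B, CuntzTwo s₁ s₂) →
      ∀ x : Fin k → B, ∃ P ∈ R, ε ≤ ‖evalStar x P‖ := by
  classical
  obtain ⟨k, ⟨e⟩⟩ := Finite.exists_equiv_fin GI
  obtain ⟨R, hR⟩ : ∃ R : Finset (FreeAlgebra ℂ (Fin k ⊕ Fin k)),
      ∀ P, P ∈ R ↔ ∃ r, mapP e (rel r) = P :=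
    ⟨(Set.finite_range fun r => mapP e (rel r)).toFinset, fun P => by
      rw [Set.Finite.mem_toFinset, Set.mem_range]⟩
  obtain ⟨ε, hε, hB⟩ := exists_eps
  obtain ⟨A, hA, hA1, hA2, a, t, s, h⟩ := exists_alg
  refine ⟨k, R, ε, hε,
    ⟨A, hA, hA1, hA2, ⟨fun i => gx a t s (e.symm i), ?_⟩, ?_⟩, ?_⟩
  · intro P hP
    obtain ⟨r, rfl⟩ := (hR P).1 hP
    rw [ev_mapP]
    have : (fun i => gx a t s (e.symm (e i))) = gx a t s := by
      funext i
      rw [e.symm_apply_apply]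
    rw [this]
    exact rel_of_rels h r
  · intro O _ _ s₁ s₂ hO ω Q _ q hq
    refine ⟨fun Φ => ?_⟩
    obtain ⟨φ, hφ⟩ := exists_liftsHom hq Φ
    have h101 : Fact (Nat.Prime 101) := ⟨by norm_num⟩
    exact not_lifts (by norm_num) (by norm_num) ZMod.injective_toCircle h hO hφ
  · intro B _ _ hex x
    obtain ⟨r, hr⟩ := hB B hex fun i => x (e i)
    exact ⟨mapP e (rel r), (hR _).2 ⟨r, rfl⟩, by rwa [ev_mapP]⟩

end

end Vale.Agent.P083.H731S
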