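import Vale.Agent.P083.H903.Final
import Mathlib.Algebra.FreeAlgebra
import Mathlib.Tactic.DeriveFintype

/-!
# *-polynomial relations without approximate solutions in exact C*-algebras
-/

set_option linter.all false

open Filter Topology
open scoped ENNReal InnerProductSpace BoundedContinuousFunction

namespace Vale.Agent.P083.H731S

open Vale.Agent.P083 Vale.Agent.P083N Vale.Agent.P083.H903

noncomputable section

/-- Value at the tuple `x` of the *-polynomial `P` in the noncommuting variables `inl i` (standing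
for `x i`) and `inr i` (standing for `(x i)*`). -/
def evalStar {ι A : Type} [CStarAlgebra A] (x : ι → A) (P : FreeAlgebra ℂ (ι ⊕ ι)) : A :=
  FreeAlgebra.lift ℂ (Sum.elim x fun i => star (x i)) P

section

variable {ι A : Type} [CStarAlgebra A] (x : ι → A)

theorem ev_l (i : ι) : evalStar x (FreeAlgebra.ι ℂ (Sum.inl i)) = x i := by
  rw [evalStar, FreeAlgebra.lift_ι_apply]; rfl

theorem ev_r (i : ι) : evalStar x (FreeAlgebra.ι ℂ (Sum.inr i)) = star (x i) := by
  rw [evalStar, FreeAlgebra.lift_ι_apply]; rfl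

theorem ev_add (P Q) : evalStar x (P + Q) = evalStar x P + evalStar x Q := map_add _ _ _

theorem ev_sub (P Q) : evalStar x (P - Q) = evalStar x P - evalStar x Q := map_sub _ _ _

theorem ev_mul (P Q) : evalStar x (P * Q) = evalStar x P * evalStar x Q := map_mul _ _ _

theorem ev_pow (P) (n : ℕ) : evalStar x (P ^ n) = evalStar x P ^ n := map_pow _ _ _

theorem ev_one : evalStar x 1 = 1 := map_one _

theorem ev_zero : evalStar x 0 = 0 := map_zero _

theorem ev_smul (c : ℂ) (P) : evalStar x (c • P) = c • evalStar x P := map_smul _ _ _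

theorem ev_algebraMap (c : ℂ) : evalStar x (algebraMap ℂ _ c) = c • (1 : A) := by
  rw [Algebra.algebraMap_eq_smul_one, ev_smul, ev_one]

end

/-- The index set of the generators. -/
abbrev GI : Type := Gen ⊕ (ZMod 101 ⊕ Unit)

/-- *-polynomials. -/
abbrev SP : Type := FreeAlgebra ℂ (GI ⊕ GI)

def va (g : Gen) : SP := FreeAlgebra.ι ℂ (Sum.inl (Sum.inl g))
def wa (g : Gen) : SP := FreeAlgebra.ι ℂ (Sum.inr (Sum.inl g))
def vt (y : ZMod 101) : SP := FreeAlgebra.ι ℂ (Sum.inl (Sum.inr (Sum.inl y)))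
def wt (y : ZMod 101) : SP := FreeAlgebra.ι ℂ (Sum.inr (Sum.inr (Sum.inl y)))
def vs : SP := FreeAlgebra.ι ℂ (Sum.inl (Sum.inr (Sum.inr ())))
def ws : SP := FreeAlgebra.ι ℂ (Sum.inr (Sum.inr (Sum.inr ())))

def vz (g h : Gen) : SP := va g * va h * (wa g * wa h)

inductive RI : Type
  | u1 (g : Gen) | u2 (g : Gen) | pw (g : Gen)
  | h1 (g h : Gen) | h2 (g h : Gen)
  | io (y y' : ZMod 101)
  | x (y : ZMod 101) | z (y : ZMod 101) | a0 (y : ZMod 101) | a1 (y : ZMod 101)
  | a2 (y : ZMod 101) | b (y : ZMod 101)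
  | c1 | c2 | s1 | s2 (g : Gen)
  deriving Fintype

/-- The relations. -/
def rel : RI → SP
  | .u1 g => wa g * va g - 1
  | .u2 g => va g * wa g - 1
  | .pw g => va g ^ 101 - 1
  | .h1 g h => if g = h then 0 else vz g h * va g - va g * vz g h
  | .h2 g h => if g = h then 0 else vz g h * va h - va h * vz g h
  | .io y y' => wt y * vt y' - if y = y' then 1 else 0
  | .x y => va Gen.X * vt y - vt (y + 1)
  | .z y => va Gen.Z * vt y - ((ZMod.toCircle y : Circle) : ℂ) • vt y
  | .a0 y => va Gen.A0 * vt y - vt y * (va Gen.X ^ y.val * va Gen.A2)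
  | .a1 y => va Gen.A1 * vt y - vt y * va Gen.A0
  | .a2 y => va Gen.A2 * vt y - vt y * va Gen.A1
  | .b y => va Gen.B * vt y - vt y * (va Gen.Z ^ y.val * va Gen.B)
  | .c1 => va Gen.X * va Gen.A2 - va Gen.A2 * va Gen.X
  | .c2 => va Gen.Z * va Gen.B - va Gen.B * va Gen.Z
  | .s1 => ws * vs - 1
  | .s2 g => va g * vs - vs

section

variable {A : Type} [CStarAlgebra A]

/-- The tuple of generators. -/
def gx (a : Gen → A) (t : ZMod 101 → A) (s : A) : GI → A := Sum.elim a (Sum.elim t fun _ => s)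

theorem gx_eq (x : GI → A) :
    gx (fun g => x (Sum.inl g)) (fun y => x (Sum.inr (Sum.inl y))) (x (Sum.inr (Sum.inr ()))) = x := by
  funext i
  rcases i with i | i | i <;> rfl

variable (a : Gen → A) (t : ZMod 101 → A) (s : A)

theorem ev_va (g : Gen) : evalStar (gx a t s) (va g) = a g := ev_l _ _
theorem ev_wa (g : Gen) : evalStar (gx a t s) (wa g) = star (a g) := ev_r _ _
theorem ev_vt (y : ZMod 101) : evalStar (gx a t s) (vt y) = t y := ev_l _ _
theorem ev_wt (y : ZMod 101) : evalStar (gx a t s) (wt y) = star (t y) := ev_r _ _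
theorem ev_vs : evalStar (gx a t s) vs = s := ev_l _ _
theorem ev_ws : evalStar (gx a t s) ws = star s := ev_r _ _
theorem ev_vz (g h : Gen) : evalStar (gx a t s) (vz g h) = a g * a h * (star (a g) * star (a h)) := by
  rw [vz, ev_mul, ev_mul, ev_mul, ev_va, ev_va, ev_wa, ev_wa]

variable {a t s}

theorem rel_of_rels (h : Rels 101 ZMod.toCircle a t s) (r : RI) :
    evalStar (gx a t s) (rel r) = 0 := by
  have hu : ∀ g, star (a g) * a g = 1 ∧ a g * star (a g) = 1 := fun g => by
    have := h.uni g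
    rw [Unitary.mem_iff] at this
    exact this
  have hz : ∀ g k, g ≠ k → Commute (a g * a k * (star (a g) * star (a k))) (a g) ∧
      Commute (a g * a k * (star (a g) * star (a k))) (a k) := by
    intro g k hgk
    obtain ⟨z, h1, h2, h3⟩ := h.heis g k hgk
    rw [← HeisM.eq_comm (hu g).2 (hu k).2 h1]
    exact ⟨h2, h3⟩
  cases r with
  | u1 g => rw [rel, ev_sub, ev_mul, ev_one, ev_wa, ev_va, (hu g).1, sub_self]
  | u2 g => rw [rel, ev_sub, ev_mul, ev_one, ev_wa, ev_va, (hu g).2, sub_self]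
  | pw g => rw [rel, ev_sub, ev_pow, ev_one, ev_va, h.pow, sub_self]
  | h1 g k =>
    rw [rel]
    split_ifs with hgk
    · exact ev_zero _
    · rw [ev_sub, ev_mul, ev_mul, ev_vz, ev_va, (hz g k hgk).1.eq, sub_self]
  | h2 g k =>
    rw [rel]
    split_ifs with hgk
    · exact ev_zero _
    · rw [ev_sub, ev_mul, ev_mul, ev_vz, ev_va, (hz g k hgk).2.eq, sub_self]
  | io y y' =>
    rw [rel, ev_sub, ev_mul, ev_wt, ev_vt, h.iso]
    split_ifs
    · rw [ev_one, sub_self]
    · rw [ev_zero, sub_self]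
  | x y => rw [rel, ev_sub, ev_mul, ev_va, ev_vt, ev_vt, h.X, sub_self]
  | z y => rw [rel, ev_sub, ev_mul, ev_smul, ev_va, ev_vt, h.Z, sub_self]
  | a0 y =>
    rw [rel, ev_sub, ev_mul, ev_mul, ev_mul, ev_pow, ev_va, ev_va, ev_va, ev_vt, h.A0, sub_self]
  | a1 y => rw [rel, ev_sub, ev_mul, ev_mul, ev_va, ev_va, ev_vt, h.A1, sub_self]
  | a2 y => rw [rel, ev_sub, ev_mul, ev_mul, ev_va, ev_va, ev_vt, h.A2, sub_self]
  | b y =>
    rw [rel, ev_sub, ev_mul, ev_mul, ev_mul, ev_pow, ev_va, ev_va, ev_vt, h.B, sub_self]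
  | c1 => rw [rel, ev_sub, ev_mul, ev_mul, ev_va, ev_va, h.c1.eq, sub_self]
  | c2 => rw [rel, ev_sub, ev_mul, ev_mul, ev_va, ev_va, h.c2.eq, sub_self]
  | s1 => rw [rel, ev_sub, ev_mul, ev_one, ev_ws, ev_vs, h.s_iso, sub_self]
  | s2 g => rw [rel, ev_sub, ev_mul, ev_va, ev_vs, h.s_inv, sub_self]

theorem rels_of_rel (h : ∀ r, evalStar (gx a t s) (rel r) = 0) : Rels 101 ZMod.toCircle a t s := by
  have hu : ∀ g, star (a g) * a g = 1 ∧ a g * star (a g) = 1 := fun g => by
    have e1 := h (.u1 g)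
    have e2 := h (.u2 g)
    rw [rel, ev_sub, ev_mul, ev_one, ev_wa, ev_va, sub_eq_zero] at e1
    rw [rel, ev_sub, ev_mul, ev_one, ev_wa, ev_va, sub_eq_zero] at e2
    exact ⟨e1, e2⟩
  refine
    { uni := ?_
      pow := ?_
      heis := ?_
      iso := ?_
      X := ?_
      Z := ?_
      A0 := ?_
      A1 := ?_
      A2 := ?_
      B := ?_
      c1 := ?_
      c2 := ?_
      s_iso := ?_
      s_inv := ?_ }
  · intro g
    rw [Unitary.mem_iff]
    exact hu g
  · intro g
    have e := h (.pw g)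
    rwa [rel, ev_sub, ev_pow, ev_one, ev_va, sub_eq_zero] at e
  · intro g k hgk
    have e1 := h (.h1 g k)
    have e2 := h (.h2 g k)
    rw [rel, if_neg hgk, ev_sub, ev_mul, ev_mul, ev_vz, ev_va, sub_eq_zero] at e1
    rw [rel, if_neg hgk, ev_sub, ev_mul, ev_mul, ev_vz, ev_va, sub_eq_zero] at e2
    refine ⟨a g * a k * (star (a g) * star (a k)), ?_, e1, e2⟩
    calc a g * a k = a g * a k * (star (a g) * (star (a k) * a k) * a g) := by
          rw [(hu k).1, mul_one, (hu g).1, mul_one]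
      _ = a g * a k * (star (a g) * star (a k)) * (a k * a g) := by simp only [mul_assoc]
  · intro y y'
    have e := h (.io y y')
    rw [rel, ev_sub, ev_mul, ev_wt, ev_vt, sub_eq_zero] at e
    rw [e]
    split_ifs
    · exact ev_one _
    · exact ev_zero _
  · intro y
    have e := h (.x y)
    rwa [rel, ev_sub, ev_mul, ev_va, ev_vt, ev_vt, sub_eq_zero] at e
  · intro y
    have e := h (.z y)
    rwa [rel, ev_sub, ev_mul, ev_smul, ev_va, ev_vt, sub_eq_zero] at e
  · intro y
    have e := h (.a0 y)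
    rwa [rel, ev_sub, ev_mul, ev_mul, ev_mul, ev_pow, ev_va, ev_va, ev_va, ev_vt,
      sub_eq_zero] at e
  · intro y
    have e := h (.a1 y)
    rwa [rel, ev_sub, ev_mul, ev_mul, ev_va, ev_va, ev_vt, sub_eq_zero] at e
  · intro y
    have e := h (.a2 y)
    rwa [rel, ev_sub, ev_mul, ev_mul, ev_va, ev_va, ev_vt, sub_eq_zero] at e
  · intro y
    have e := h (.b y)
    rwa [rel, ev_sub, ev_mul, ev_mul, ev_mul, ev_pow, ev_va, ev_va, ev_vt, sub_eq_zero] at e
  · have e := h .c1
    rwa [rel, ev_sub, ev_mul, ev_mul, ev_va, ev_va, sub_eq_zero] at e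
  · have e := h .c2
    rwa [rel, ev_sub, ev_mul, ev_mul, ev_va, ev_va, sub_eq_zero] at e
  · have e := h .s1
    rwa [rel, ev_sub, ev_mul, ev_one, ev_ws, ev_vs, sub_eq_zero] at e
  · intro g
    have e := h (.s2 g)
    rwa [rel, ev_sub, ev_mul, ev_va, ev_vs, sub_eq_zero] at e

theorem norm_le_two_of {x : A} [Nontrivial A] (h : ‖star x * x - 1‖ ≤ 1) : ‖x‖ ≤ 2 := by
  have h1 : ‖star x * x‖ ≤ 2 := by
    have : star x * x = (star x * x - 1) + 1 := by abel
    rw [this]
    refine (norm_add_le _ _).trans ?_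
    rw [CStarRing.norm_one]
    linarith
  rw [CStarRing.norm_star_mul_self] at h1
  nlinarith [norm_nonneg x]

/-- Approximate solutions of the relations are bounded. -/
theorem norm_le_two [Nontrivial A] (h : ∀ r, ‖evalStar (gx a t s) (rel r)‖ ≤ 1) (i : GI) :
    ‖gx a t s i‖ ≤ 2 := by
  rcases i with g | y | u
  · have e := h (.u1 g)
    rw [rel, ev_sub, ev_mul, ev_one, ev_wa, ev_va] at e
    exact norm_le_two_of e
  · have e := h (.io y y)
    rw [rel, ev_sub, ev_mul, ev_wt, ev_vt, if_pos rfl, ev_one] at e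
    exact norm_le_two_of e
  · have e := h .s1
    rw [rel, ev_sub, ev_mul, ev_one, ev_ws, ev_vs] at e
    exact norm_le_two_of e

end

end

end Vale.Agent.P083.H731S
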