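import Vale.Agent.P083.H731S.Pres

/-!
# No approximate solutions of the relations in exact C*-algebras
-/

set_option linter.all false

open Filter Topology
open scoped ENNReal InnerProductSpace BoundedContinuousFunction

namespace Vale.Agent.P083.H731S

open Vale.Agent.P083 Vale.Agent.P083N Vale.Agent.P083.H903

noncomputable section

theorem isBddSeq_add {B : ℕ → Type} [∀ n, CStarAlgebra (B n)] {x y : ∀ n, B n} (hx : IsBddSeq x)
    (hy : IsBddSeq y) : IsBddSeq (x + y) := by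
  obtain ⟨C, hC⟩ := hx
  obtain ⟨D, hD⟩ := hy
  exact ⟨C + D, fun n => (norm_add_le _ _).trans (add_le_add (hC n) (hD n))⟩

theorem isBddSeq_mul {B : ℕ → Type} [∀ n, CStarAlgebra (B n)] {x y : ∀ n, B n} (hx : IsBddSeq x)
    (hy : IsBddSeq y) : IsBddSeq (x * y) := by
  obtain ⟨C, hC⟩ := hx
  obtain ⟨D, hD⟩ := hy
  exact ⟨C * D, fun n => (norm_mul_le _ _).trans
      (mul_le_mul (hC n) (hD n) (norm_nonneg _) ((norm_nonneg _).trans (hC n)))⟩

theorem isBddSeq_star {B : ℕ → Type} [∀ n, CStarAlgebra (B n)] {x : ∀ n, B n} (hx : IsBddSeq x) :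
    IsBddSeq (star x) := by
  obtain ⟨C, hC⟩ := hx
  exact ⟨C, fun n => by rw [Pi.star_apply, norm_star]; exact hC n⟩

theorem isBddSeq_smul {B : ℕ → Type} [∀ n, CStarAlgebra (B n)] (c : ℂ) {x : ∀ n, B n}
    (hx : IsBddSeq x) : IsBddSeq (c • x) := by
  obtain ⟨C, hC⟩ := hx
  refine ⟨‖c‖ * C, fun n => ?_⟩
  show ‖c • x n‖ ≤ _
  rw [norm_smul]
  exact mul_le_mul_of_nonneg_left (hC n) (norm_nonneg _)

theorem isBddSeq_one {B : ℕ → Type} [∀ n, CStarAlgebra (B n)] : IsBddSeq (1 : ∀ n, B n) := by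
  refine ⟨1, fun n => ?_⟩
  rcases subsingleton_or_nontrivial (B n) with h | h
  · rw [Subsingleton.elim ((1 : ∀ n, B n) n) 0, norm_zero]; exact zero_le_one
  · exact CStarRing.norm_one.le

/-- Evaluation of *-polynomials in an ultraproduct. -/
theorem ev_ultraprod {ι : Type} {B : ℕ → Type} [∀ n, CStarAlgebra (B n)] {ω : Ultrafilter ℕ}
    {Q : Type} [CStarAlgebra Q] {q : (∀ n, B n) → Q} (hq : IsUltraprod B ω Q q)
    (x : ∀ n, ι → B n) (hx : ∀ i, IsBddSeq fun n => x n i) (P : FreeAlgebra ℂ (ι ⊕ ι)) :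
    (IsBddSeq fun n => evalStar (x n) P) ∧
      q (fun n => evalStar (x n) P) = evalStar (fun i => q fun n => x n i) P := by
  induction P using FreeAlgebra.induction with
  | grade0 c =>
    have : (fun n => evalStar (x n) (algebraMap ℂ (FreeAlgebra ℂ (ι ⊕ ι)) c)) = c • 1 := by
      funext n
      rw [ev_algebraMap]; rfl
    rw [this, ev_algebraMap, hq.smul c 1 isBddSeq_one, hq.one]
    exact ⟨isBddSeq_smul c isBddSeq_one, rfl⟩
  | grade1 i =>
    rcases i with i | i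
    · simp only [ev_l]
      exact ⟨hx i, trivial⟩
    · simp only [ev_r]
      exact ⟨isBddSeq_star (hx i), hq.star _ (hx i)⟩
  | mul P P' h h' =>
    simp only [ev_mul]
    exact ⟨isBddSeq_mul h.1 h'.1, by rw [← h.2, ← h'.2]; exact hq.mul _ _ h.1 h'.1⟩
  | add P P' h h' =>
    simp only [ev_add]
    exact ⟨isBddSeq_add h.1 h'.1, by rw [← h.2, ← h'.2]; exact hq.add _ _ h.1 h'.1⟩

/-- The relations have no solution in an ultraproduct of exact C*-algebras. -/
theorem no_rels {B : ℕ → Type} [∀ n, CStarAlgebra (B n)] [∀ n, Nontrivial (B n)]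
    (hB : ∀ n, IsExactAlg (B n) ∨ IsNuclear (B n) ∨ ∃ s₁ s₂ : B n, CuntzTwo s₁ s₂)
    {ω : Ultrafilter ℕ} {Q : Type} [hQ : CStarAlgebra Q] [Nontrivial Q] {q : (∀ n, B n) → Q}
    (hq : IsUltraprod B ω Q q) {a : Gen → Q} {t : ZMod 101 → Q} {s : Q}
    (h : Rels 101 ZMod.toCircle a t s) : False := by
  have h101 : Fact (Nat.Prime 101) := ⟨by norm_num⟩
  choose K i1 i2 i3 i4 π hπ hS using fun n => exists_sliceRep (B n) (hB n)
  obtain ⟨φ, l1, l2, l3, l4, l5, l6⟩ := exists_lift' hq (NonUnitalStarAlgHom.id ℂ Q)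
  have hcon : ¬ ∀ a, Tendsto (fun n => ‖φ n a‖) ω (𝓝 0) := fun hall => by
    have e := l6 hall
    have e1 : (NonUnitalStarAlgHom.id ℂ Q) 1 = (0 : Q →⋆ₙₐ[ℂ] Q) 1 := by rw [e]
    exact one_ne_zero (α := Q) e1
  obtain ⟨n, e1, e2, e3, e4⟩ := stStage 101 h101 (by norm_num) ZMod.toCircle Q hQ a t s h B
    inferInstance K i1 i2 i3 π hπ ω φ l1 l2 l3 l4 l5 hcon
  exact no_stage (by norm_num) (by norm_num) ZMod.injective_toCircle (π n) (hS n)
    (fun g => φ n (a g)) (φ n 1) e1 e2 e3 e4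

theorem nontrivial_of_ultraprod {B : ℕ → Type} [∀ n, CStarAlgebra (B n)] [∀ n, Nontrivial (B n)]
    {ω : Ultrafilter ℕ} {Q : Type} [CStarAlgebra Q] {q : (∀ n, B n) → Q}
    (hq : IsUltraprod B ω Q q) : Nontrivial Q := by
  refine ⟨⟨1, 0, fun h => ?_⟩⟩
  rw [← hq.one, hq.ker 1 isBddSeq_one] at h
  have : (fun n => ‖(1 : ∀ n, B n) n‖) = fun _ => (1 : ℝ) := by
    funext n
    exact CStarRing.norm_one
  rw [this] at h
  exact one_ne_zero (tendsto_nhds_unique tendsto_const_nhds h)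

/-- **No approximate solutions in exact C*-algebras.** -/
theorem exists_eps : ∃ ε : ℝ, 0 < ε ∧ ∀ (B : Type) [CStarAlgebra B] [Nontrivial B],
    (IsExactAlg B ∨ IsNuclear B ∨ ∃ s₁ s₂ : B, CuntzTwo s₁ s₂) →
    ∀ x : GI → B, ∃ r, ε ≤ ‖evalStar x (rel r)‖ := by
  by_contra hno
  push Not at hno
  have hpos : ∀ n : ℕ, (0 : ℝ) < 1 / ((n : ℝ) + 1) := fun n => by positivity
  choose B i1 i2 hB x hx using fun n : ℕ => hno (1 / ((n : ℝ) + 1)) (hpos n)
  obtain ⟨Q, hQ, q, hq⟩ := exists_isUltraprod B (hyperfilter ℕ)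
  have hQ2 := nontrivial_of_ultraprod hq
  have hbd : ∀ i, IsBddSeq fun n => x n i := by
    intro i
    refine ⟨2, fun n => ?_⟩
    have h1 : ∀ r, ‖evalStar (x n) (rel r)‖ ≤ 1 := fun r =>
      (hx n r).le.trans (by rw [div_le_one (by positivity)]; linarith [(Nat.cast_nonneg n : (0 : ℝ) ≤ n)])
    show ‖x n i‖ ≤ 2
    rw [← gx_eq (x n)] at h1 ⊢
    exact norm_le_two h1 i
  have hz : ∀ r, evalStar (fun i => q fun n => x n i) (rel r) = 0 := by
    intro r
    obtain ⟨e1, e2⟩ := ev_ultraprod hq x hbd (rel r)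
    rw [← e2, hq.ker _ e1]
    refine tendsto_of_tendsto_of_tendsto_of_le_of_le tendsto_const_nhds
      (g := fun _ => (0 : ℝ)) (h := fun n : ℕ => 1 / ((n : ℝ) + 1)) ?_ (fun n => norm_nonneg _)
      (fun n => (hx n r).le)
    exact (tendsto_one_div_add_atTop_nhds_zero_nat (𝕜 := ℝ)).mono_left
      Nat.hyperfilter_le_atTop
  rw [← gx_eq (fun i => q fun n => x n i)] at hz
  exact no_rels hB hq (rels_of_rel hz)

/-- Change of the names of the variables. -/
def mapP {ι κ : Type} (e : ι → κ) : FreeAlgebra ℂ (ι ⊕ ι) →ₐ[ℂ] FreeAlgebra ℂ (κ ⊕ κ) :=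
  FreeAlgebra.lift ℂ fun i => FreeAlgebra.ι ℂ (Sum.map e e i)

theorem ev_mapP {ι κ A : Type} [CStarAlgebra A] (e : ι → κ) (y : κ → A)
    (P : FreeAlgebra ℂ (ι ⊕ ι)) : evalStar y (mapP e P) = evalStar (fun i => y (e i)) P := by
  induction P using FreeAlgebra.induction with
  | grade0 c => rw [AlgHom.commutes, ev_algebraMap, ev_algebraMap]
  | grade1 i =>
    rcases i with i | i
    · rw [mapP, FreeAlgebra.lift_ι_apply, Sum.map_inl, ev_l, ev_l]
    · rw [mapP, FreeAlgebra.lift_ι_apply, Sum.map_inr, ev_r, ev_r]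
  | mul P P' h h' => rw [map_mul, ev_mul, ev_mul, h, h']
  | add P P' h h' => rw [map_add, ev_add, ev_add, h, h']

end

end Vale.Agent.P083.H731S
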